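import Vale.Agent.P144D.I.N5a.Main
import Vale.Agent.P144D.I.DefsN2

/-!
The weaker form of the lower bound near the source.
-/

namespace Vale.Agent.P144Z

theorem NearA.two (h : NearA) : NearA2 := fun c hc => by
  obtain ⟨C₀, L₀, h⟩ := h c hc
  refine ⟨C₀, L₀, fun L hL => ?_⟩
  obtain ⟨κ, hκ, h⟩ := h L hL
  refine ⟨κ, hκ, fun N _ => ?_⟩
  obtain ⟨c₀, hc₀, J₀, h⟩ := h N
  exact ⟨c₀, hc₀, J₀, fun J hJ M _ I T q x₀ e ua νa η φ u w h1 h2 h3 h4 h5 h6 h7 h8 _ =>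
    h J hJ M I I T q x₀ e ua νa η φ u w h1 h2 (fun _ _ _ _ => Iff.rfl) h3 h4 h5 h6 h7 h8⟩

theorem nearA2_of (hH : HarnStmt) : NearA2 := (nearA_of hH).two

end Vale.Agent.P144Z
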