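import Vale.Agent.P144D.I.DefsN
import Vale.Agent.P144D.B.Lin

/-!
Chains of squares along a segment.
-/

namespace Vale.Agent.P144Z.IN5a

open Finset

theorem div_bd (d : ℤ) {n : ℕ} (hn : 1 ≤ n) (i : ℕ) :
    (n : ℤ) * (i * d / n) ≤ i * d ∧ i * d < n * (i * d / n) + n := by
  have h0 : (0 : ℤ) < n := by omega
  have h1 := Int.mul_ediv_add_emod (i * d) n
  have h2 := Int.emod_nonneg (i * d) h0.ne'
  have h3 := Int.emod_lt_of_pos (i * d) h0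
  constructor <;> linarith

theorem div_step {d : ℤ} {n s : ℕ} (hn : 1 ≤ n) (hd : d.natAbs ≤ n * s) (i : ℕ) :
    ((((i + 1 : ℕ) : ℤ) * d / n) - i * d / n).natAbs ≤ s := by
  have h0 : (0 : ℤ) < n := by omega
  obtain ⟨a1, a2⟩ := div_bd d hn i
  obtain ⟨b1, b2⟩ := div_bd d hn (i + 1)
  have h1 : |d| ≤ n * s := by rw [Int.abs_eq_natAbs]; exact_mod_cast hd
  obtain ⟨h2, h3⟩ := abs_le.1 h1
  generalize ((i + 1 : ℕ) : ℤ) * d / n = p at *
  generalize (i : ℤ) * d / n = q at *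
  push_cast at b1 b2
  have c1 : p - q < s + 1 := lt_of_mul_lt_mul_left (a := (n : ℤ)) (by nlinarith) h0.le
  have c2 : q - p < s + 1 := lt_of_mul_lt_mul_left (a := (n : ℤ)) (by nlinarith) h0.le
  omega

theorem div_btw {x y : ℤ} {n R : ℕ} (hn : 1 ≤ n) (hx : x.natAbs ≤ R) (hy : y.natAbs ≤ R) {i : ℕ}
    (hi : i ≤ n) : (x + i * (y - x) / n).natAbs ≤ R := by
  have h0 : (0 : ℤ) < n := by omega
  obtain ⟨a1, a2⟩ := div_bd (y - x) hn i
  generalize (i : ℤ) * (y - x) / n = q at *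
  have h1 : -(R : ℤ) ≤ x ∧ x ≤ R ∧ -(R : ℤ) ≤ y ∧ y ≤ R := by omega
  have h2 : (0 : ℤ) ≤ i := by omega
  have h3 : (0 : ℤ) ≤ n - i := by omega
  have c1 : x + q < R + 1 := lt_of_mul_lt_mul_left (a := (n : ℤ)) (by
    nlinarith [mul_nonneg h2 (sub_nonneg.2 h1.2.2.2), mul_nonneg h3 (sub_nonneg.2 h1.2.1)]) h0.le
  have c2 : -(x + q) < R + 1 := lt_of_mul_lt_mul_left (a := (n : ℤ)) (by
    nlinarith [mul_nonneg h2 (sub_nonneg.2 h1.2.2.1), mul_nonneg h3 (sub_nonneg.2 h1.1)]) h0.le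
  omega

theorem div_real (d : ℤ) {n : ℕ} (hn : 1 ≤ n) (i : ℕ) :
    |((i * d / n : ℤ) : ℝ) - (i : ℝ) / n * d| ≤ 1 := by
  have h0 : (0 : ℝ) < n := by exact_mod_cast hn
  obtain ⟨a1, a2⟩ := div_bd d hn i
  generalize (i : ℤ) * d / n = q at *
  have b1 : (n : ℝ) * q ≤ i * d := by exact_mod_cast a1
  have b2 : (i : ℝ) * d ≤ n * q + n := by exact_mod_cast a2.le
  have e : (q : ℝ) - (i : ℝ) / n * d = (n * q - i * d) / n := by field_simp
  rw [e, abs_le, le_div_iff₀ h0, div_le_iff₀ h0]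
  constructor <;> linarith

/-- The lattice points along a segment. -/
def seg (x y : ℤ × ℤ) (n i : ℕ) : ℤ × ℤ :=
  (x.1 + i * (y.1 - x.1) / n, x.2 + i * (y.2 - x.2) / n)

theorem seg_zero (x y : ℤ × ℤ) (n : ℕ) : seg x y n 0 = x := by simp [seg]

theorem seg_last (x y : ℤ × ℤ) {n : ℕ} (hn : 1 ≤ n) : seg x y n n = y := by
  have h0 : (n : ℤ) ≠ 0 := by omega
  simp [seg, Int.mul_ediv_cancel_left _ h0]

theorem seg_step {x y : ℤ × ℤ} {n s : ℕ} (hn : 1 ≤ n) (h : zd x y ≤ n * s) (i : ℕ) :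
    zd (seg x y n (i + 1)) (seg x y n i) ≤ s := by
  simp only [zd, max_le_iff] at h
  have h1 := div_step (d := y.1 - x.1) (s := s) hn (by omega) i
  have h2 := div_step (d := y.2 - x.2) (s := s) hn (by omega) i
  simp only [zd, seg, add_sub_add_left_eq_sub, max_le_iff]
  exact ⟨h1, h2⟩

theorem seg_box {x y : ℤ × ℤ} {n R : ℕ} (hn : 1 ≤ n) (hx : zd x 0 ≤ R) (hy : zd y 0 ≤ R) {i : ℕ}
    (hi : i ≤ n) : zd (seg x y n i) 0 ≤ R := by
  simp only [zd, max_le_iff, Prod.fst_zero, Prod.snd_zero, sub_zero] at hx hy ⊢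
  exact ⟨div_btw hn hx.1 hy.1 hi, div_btw hn hx.2 hy.2 hi⟩

theorem seg_ht {ν : ℂ} (hν : ‖ν‖ = 1) {x y : ℤ × ℤ} {n : ℕ} (hn : 1 ≤ n) {h : ℝ}
    (hx : h ≤ ht ν x) (hy : h ≤ ht ν y) {i : ℕ} (hi : i ≤ n) : h - 2 ≤ ht ν (seg x y n i) := by
  have h0 : (0 : ℝ) < n := by exact_mod_cast hn
  have a1 := (abs_le.1 (GeoA.abs_mul_le (div_real (y.1 - x.1) hn i) (GeoA.abs_re hν))).1
  have a2 := (abs_le.1 (GeoA.abs_mul_le (div_real (y.2 - x.2) hn i) (GeoA.abs_im hν))).1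
  have t0 : (0 : ℝ) ≤ (i : ℝ) / n := by positivity
  have t1 : (i : ℝ) / n ≤ 1 := by rw [div_le_one h0]; exact_mod_cast hi
  simp only [ht, seg] at hx hy ⊢
  generalize (i : ℝ) / n = t at *
  generalize (i : ℤ) * (y.1 - x.1) / n = p at *
  generalize (i : ℤ) * (y.2 - x.2) / n = q at *
  push_cast at a1 a2 ⊢
  nlinarith [mul_nonneg t0 (sub_nonneg.2 hy), mul_nonneg (sub_nonneg.2 t1) (sub_nonneg.2 hx)]

/-- A chain of steps along a segment in a half square. -/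
theorem chain {P : ℤ × ℤ → ℝ → Prop} {ν : ℂ} (hν : ‖ν‖ = 1) {ρ s n : ℕ} {h c : ℝ} (hc : 0 ≤ c)
    (hst : ∀ p p' A, zd p 0 ≤ ρ → zd p' 0 ≤ ρ → h - 2 ≤ ht ν p → h - 2 ≤ ht ν p' → zd p' p ≤ s →
      0 ≤ A → P p A → P p' (c * A)) {x y : ℤ × ℤ} (hn : 1 ≤ n) (hx : zd x 0 ≤ ρ)
    (hy : zd y 0 ≤ ρ) (hx' : h ≤ ht ν x) (hy' : h ≤ ht ν y) (hxy : zd x y ≤ n * s) {A : ℝ}
    (hA : 0 ≤ A) (h0 : P x A) : P y (c ^ n * A) := by
  have key : ∀ i ≤ n, P (seg x y n i) (c ^ i * A) := by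
    intro i
    induction i with
    | zero => intro _; simpa [seg_zero] using h0
    | succ i ih =>
      intro hi
      have := hst _ _ _ (seg_box hn hx hy (by omega)) (seg_box hn hx hy hi)
        (seg_ht hν hn hx' hy' (by omega)) (seg_ht hν hn hx' hy' hi) (seg_step hn hxy i)
        (by positivity) (ih (by omega))
      rwa [← mul_assoc, ← pow_succ'] at this
  simpa [seg_last x y hn] using key n le_rfl

theorem zd_sub0 (v p : ℤ × ℤ) : zd (v - p) 0 = zd v p := by simp [zd]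

theorem zd_add0 (p v : ℤ × ℤ) : zd (p + v) p = zd v 0 := by simp [zd]

theorem ht_near {ν : ℂ} (hν : ‖ν‖ = 1) {v p : ℤ × ℤ} {m : ℕ} (h : zd v p ≤ m) :
    ht ν p - 2 * m ≤ ht ν v ∧ ht ν v ≤ ht ν p + 2 * m := by
  have h1 := abs_le.1 (B1b.abs_ht_le hν (v - p))
  rw [B1b.ht_sub, zd_sub0] at h1
  have h2 : (zd v p : ℝ) ≤ m := by exact_mod_cast h
  constructor <;> linarith [h1.1, h1.2]

/-- The Harnack chain in the deep part. -/
theorem deep_chain (hH : HarnStmt) : ∃ c > (0 : ℝ), c ≤ 1 ∧ ∀ (n : ℕ) (W : ℤ × ℤ → ℝ) (ν : ℂ)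
    (R ρ m : ℕ) (w₀ h β : ℝ) (x y : ℤ × ℤ), ‖ν‖ = 1 → (∀ v, zd v 0 ≤ R + 1 → 0 ≤ W v) →
    (∀ v, zd v 0 ≤ R → w₀ ≤ ht ν v → SupH W v) → 1 ≤ m → ρ + 3 * m ≤ R → w₀ + 6 * m + 2 ≤ h →
    zd x 0 ≤ ρ → zd y 0 ≤ ρ → h ≤ ht ν x → h ≤ ht ν y → zd x y ≤ n * m → 1 ≤ n → 0 ≤ β →
    (∀ p, zd p x ≤ m → β ≤ W p) → c ^ n * β ≤ W y := by
  obtain ⟨c, hc, H⟩ := hH 2
  refine ⟨min c 1, by positivity, min_le_right _ _, fun n W ν R ρ m w₀ h β x y hν h0 hs hm hR hw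
    hx hy hx' hy' hxy hn hβ hb => ?_⟩
  refine chain (P := fun p A => ∀ v, zd v p ≤ m → A ≤ W v) hν (by positivity)
    (fun p p' A hp _ hp1 _ hpp hA hP v hv => ?_) hn hx hy hx' hy' hxy hβ hb y
    (by simp [zd])
  have h1 := H m W p A hm hA (fun v hv => h0 v (by have := GeoA.zd_tri v p 0; omega))
    (fun v hv => hs v (by have := GeoA.zd_tri v p 0; omega) (by
      have := (ht_near hν hv).1
      push_cast at this
      linarith)) hP v (by have := GeoA.zd_tri v p' p; omega)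
  exact (mul_le_mul_of_nonneg_right (min_le_left _ _) hA).trans h1

theorem nb_le {W : ℤ × ℤ → ℝ} {v : ℤ × ℤ} (h : SupH W v) (h0 : ∀ a, 0 ≤ W (v + st4 a))
    (a : Fin 4) : W (v + st4 a) ≤ 4 * W v := by
  have h1 := Finset.single_le_sum (f := fun a => W (v + st4 a)) (fun a _ => h0 a) (mem_univ a)
  unfold SupH at h
  simp only [Fin.sum_univ_four] at h h1
  linarith

theorem one_step {W : ℤ × ℤ → ℝ} {p p' : ℤ × ℤ} (h : zd p' p ≤ 1)
    (h0 : ∀ v, zd v p' ≤ 2 → 0 ≤ W v) (hs : ∀ v, zd v p' ≤ 1 → SupH W v) : W p ≤ 16 * W p' := by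
  have k : ∀ v, zd v p' ≤ 1 → ∀ a, W (v + st4 a) ≤ 4 * W v := fun v hv =>
    nb_le (hs v hv) fun a => h0 _ (by
      have h1 := GeoA.zd_tri (v + st4 a) v p'
      have h2 := B1b.zd_st4 0 a
      rw [zd_add0] at h1
      rw [zero_add] at h2
      simp only [zd, sub_self, Int.natAbs_zero, max_self, zero_add] at h2 ⊢ h1 hv
      omega)
  obtain ⟨a, b⟩ := p
  obtain ⟨a', b'⟩ := p'
  simp only [zd, max_le_iff] at h
  have n0 := h0 (a', b') (by simp [zd])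
  have n1 := h0 (a, b') (by simp only [zd, max_le_iff]; omega)
  have s1 : W (a, b') ≤ 4 * W (a', b') := by
    have k0 := k (a', b') (by simp [zd]) 0
    have k2 := k (a', b') (by simp [zd]) 2
    simp only [st4, Matrix.cons_val_zero, Matrix.cons_val, Prod.mk_add_mk, add_zero] at k0 k2
    obtain rfl | rfl | rfl : a = a' ∨ a = a' + 1 ∨ a = a' + -1 := by omega
    · linarith
    · exact k0
    · exact k2
  have s2 : W (a, b) ≤ 4 * W (a, b') := by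
    have k1 := k (a, b') (by simp only [zd, max_le_iff]; omega) 1
    have k3 := k (a, b') (by simp only [zd, max_le_iff]; omega) 3
    simp only [st4, Matrix.cons_val_zero, Matrix.cons_val_one, Matrix.cons_val, Prod.mk_add_mk,
      add_zero] at k1 k3
    obtain rfl | rfl | rfl : b = b' ∨ b = b' + 1 ∨ b = b' + -1 := by omega
    · linarith
    · exact k1
    · exact k3
  linarith

/-- The walk in the deep part. -/
theorem deep_walk (n : ℕ) (W : ℤ × ℤ → ℝ) {ν : ℂ} {R ρ : ℕ} {w₀ h : ℝ} {x y : ℤ × ℤ}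
    (hν : ‖ν‖ = 1) (h0 : ∀ v, zd v 0 ≤ R + 1 → 0 ≤ W v)
    (hs : ∀ v, zd v 0 ≤ R → w₀ ≤ ht ν v → SupH W v) (hR : ρ + 1 ≤ R) (hw : w₀ + 4 ≤ h)
    (hx : zd x 0 ≤ ρ) (hy : zd y 0 ≤ ρ) (hx' : h ≤ ht ν x) (hy' : h ≤ ht ν y) (hxy : zd x y ≤ n)
    (hn : 1 ≤ n) : (1 / 16) ^ n * W x ≤ W y := by
  refine chain (P := fun p A => A ≤ W p) (s := 1) hν (by positivity)
    (fun p p' A _ hp _ hp1 hpp _ hP => ?_) hn hx hy hx' hy' (by omega) (h0 x (by omega)) le_rfl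
  have h1 := one_step hpp (fun v hv => h0 v (by have := GeoA.zd_tri v p' 0; omega))
    (fun v hv => hs v (by have := GeoA.zd_tri v p' 0; omega) (by
      have := (ht_near hν hv).1
      push_cast at this
      linarith))
  linarith

end Vale.Agent.P144Z.IN5a
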