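import Vale.Agent.P144D.I.N5a.A
import Vale.Agent.P144D.B.HomDec

/-!
The restriction of the pair of the Green function to one side, and its maximum principle.
-/

namespace Vale.Agent.P144Z.IN5a

open Finset Matrix

variable {M : ℕ}

/-- The region with the fixed boundary condition. -/
abbrev rg (I : Finset (Tor M)) : Reg M := ⟨I, false⟩

theorem pr_iff (I : Finset (Tor M)) (z : Tor M) (v : ℤ × ℤ) (a : Fin 4) :
    (rg I).pr z v a ↔ z + prj M (v - cn (a - 1)) ∈ I ∨ z + prj M (v - cn a) ∈ I := by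
  simp [Reg.pr]

theorem out_iff (I : Finset (Tor M)) (z : Tor M) (v : ℤ × ℤ) :
    (rg I).out z v ↔ z + prj M v ∉ I := by simp [Reg.out]

theorem vx_eq (I : Finset (Tor M)) (z : Tor M) (v : ℤ × ℤ) (k : Fin 4) :
    (rg I).vx z v k = z + prj M v := by simp [Reg.vx]

theorem face_eq (z : Tor M) (v : ℤ × ℤ) (k : Fin 4) :
    z + prj M (v - cn k) = z + prj M v - prj M (cn k) := by rw [G.prj_sub, add_sub_assoc]

theorem touch_iff (I : Finset (Tor M)) (z : Tor M) (v : ℤ × ℤ) :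
    TouchT I (z + prj M v) ↔ ∃ k, z + prj M (v - cn k) ∈ I := by
  simp only [TouchT, face_eq]

theorem cn_a (v : ℤ × ℤ) (a : Fin 4) : v + st4 a - cn (a + 2 - 1) = v - cn a := by
  rw [show a + 2 - 1 = a + 1 by fin_cases a <;> rfl, ← B2a.st_cn]; abel

theorem cn_b (v : ℤ × ℤ) (a : Fin 4) : v + st4 a - cn (a + 2) = v - cn (a - 1) := by
  rw [← B2a.st_cn']; abel

theorem nb_eq (v : ℤ × ℤ) (a : Fin 4) : ∃ k k', v + st4 a = v + cn k - cn k' :=
  ⟨a + 1, a, by rw [← B2a.st_cn]; abel⟩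

theorem pr_symm (I : Finset (Tor M)) (z : Tor M) (v : ℤ × ℤ) (a : Fin 4) :
    (rg I).pr z (v + st4 a) (a + 2) ↔ (rg I).pr z v a := by
  rw [pr_iff, pr_iff, cn_a, cn_b, or_comm]

theorem pr_touch {I : Finset (Tor M)} {z : Tor M} {v : ℤ × ℤ} {a : Fin 4}
    (h : (rg I).pr z v a) : TouchT I (z + prj M v) := by
  rw [touch_iff]
  rcases (pr_iff I z v a).1 h with h | h
  · exact ⟨_, h⟩
  · exact ⟨_, h⟩

theorem pr_shift (I : Finset (Tor M)) (z : Tor M) (c : ℤ × ℤ) :
    (rg I).pr (z + prj M c) = fun v => (rg I).pr z (c + v) := by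
  funext v a
  rw [pr_iff, pr_iff, add_sub_assoc, add_sub_assoc, G.prj_add, G.prj_add, add_assoc, add_assoc]

variable [NeZero M]

/-- The data near the source. -/
structure LD (I : Finset (Tor M)) (z : Tor M) (s : Tor M × Fin 4) (R : ℕ)
    (φ : Tor M × Fin 4 → ℝ) (U W : ℤ × ℤ → ℝ) : Prop where
  dif : ∀ v k, zd v 0 ≤ R → U v - W (v - cn k) = chi φ (z + prj M v) k ^ 2
  nn : ∀ v, zd v 0 ≤ R + 1 → 0 ≤ W v
  zero : ∀ v, zd v 0 ≤ R + 1 → z + prj M v ∉ I → W v = 0
  sup : ∀ v, zd v 0 ≤ R → z + prj M v ∈ I → SupH W v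
  sub : ∀ v, zd v 0 ≤ R → v ≠ 0 → 0 ≤ ∑ a, GG U ((rg I).pr z) v a ∧
    ∑ k, chi φ (z + prj M v) k ^ 2 ≤ 7 * ∑ a, |GG U ((rg I).pr z) v a|
  eq : ∀ t : Tor M × Fin 4, tdist t.1 z ≤ R → (Dm (pwI I) *ᵥ φ) t = (Pi.single s 1 : _ → ℝ) t
  mp : ∀ (ρ : ℕ) (b : ℝ), 1 ≤ ρ → 0 ≤ b → (∀ v, zd v 0 = ρ → U v ≤ b) →
    ∀ v, ρ ≤ zd v 0 → zd v 0 ≤ R → U v ≤ b

omit [NeZero M] in
theorem pw_eq (I : Finset (Tor M)) (x : Tor M) :
    pwI I (x, 0) = (if x - prj M (cn 0) ∈ I ∨ x - prj M (cn 3) ∈ I then 1 else 0) ∧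
    pwI I (x, 1) = (if x - prj M (cn 0) ∈ I ∨ x - prj M (cn 1) ∈ I then 1 else 0) ∧
    pwI I (x - uv M 0, 0) = (if x - prj M (cn 1) ∈ I ∨ x - prj M (cn 2) ∈ I then 1 else 0) ∧
    pwI I (x - uv M 1, 1) = (if x - prj M (cn 3) ∈ I ∨ x - prj M (cn 2) ∈ I then 1 else 0) := by
  have e0 : prj M (cn 0) = 0 := by simp [cn, prj]
  have e1 : prj M (cn 1) = uv M 0 := by simp [cn, prj, uv]
  have e3 : prj M (cn 3) = uv M 1 := by simp [cn, prj, uv]
  have e2 : prj M (cn 2) = uv M 0 + uv M 1 := by simp [cn, prj, uv]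
  rw [e0, e1, e2, e3]
  refine ⟨by simp [Reg.pw, oth], by simp [Reg.pw, oth], by simp [Reg.pw, oth, sub_sub], ?_⟩
  simp [Reg.pw, oth, sub_sub, add_comm]

open Classical in
/-- The equation for the restricted field. -/
theorem eq_restr {I Ia : Finset (Tor M)} {x : Tor M}
    (h : TouchT Ia x → ∀ k, (x - prj M (cn k) ∈ I ↔ x - prj M (cn k) ∈ Ia))
    (φ : Tor M × Fin 4 → ℝ) (a : Fin 4) :
    (Dm (pwI Ia) *ᵥ fun s => if TouchT Ia s.1 then φ s else 0) (x, a) =
      if TouchT Ia x then (Dm (pwI I) *ᵥ φ) (x, a) else 0 := by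
  have e1 : prj M (cn 1) = uv M 0 := by simp [cn, prj, uv]
  have e3 : prj M (cn 3) = uv M 1 := by simp [cn, prj, uv]
  have e2 : prj M (cn 2) = uv M 0 + uv M 1 := by simp [cn, prj, uv]
  have e0 : prj M (cn 0) = 0 := by simp [cn, prj]
  obtain ⟨p0, p1, p2, p3⟩ := pw_eq Ia x
  obtain ⟨q0, q1, q2, q3⟩ := pw_eq I x
  have t0 : x - prj M (cn 0) ∈ Ia ∨ x - prj M (cn 3) ∈ Ia → TouchT Ia (x + uv M 0) := by
    rintro (k | k)
    · exact ⟨1, by rwa [e1, add_sub_cancel_right, ← sub_zero x, ← e0]⟩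
    · exact ⟨2, by rwa [e2, ← sub_sub, add_sub_cancel_right, ← e3]⟩
  have t1 : x - prj M (cn 0) ∈ Ia ∨ x - prj M (cn 1) ∈ Ia → TouchT Ia (x + uv M 1) := by
    rintro (k | k)
    · exact ⟨3, by rwa [e3, add_sub_cancel_right, ← sub_zero x, ← e0]⟩
    · exact ⟨2, by rwa [e2, add_sub_add_right_eq_sub, ← e1]⟩
  have t2 : x - prj M (cn 1) ∈ Ia ∨ x - prj M (cn 2) ∈ Ia → TouchT Ia (x - uv M 0) := by
    rintro (k | k)
    · exact ⟨0, by rwa [e0, sub_zero, ← e1]⟩
    · exact ⟨3, by rwa [e3, sub_sub, ← e2]⟩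
  have t3 : x - prj M (cn 3) ∈ Ia ∨ x - prj M (cn 2) ∈ Ia → TouchT Ia (x - uv M 1) := by
    rintro (k | k)
    · exact ⟨0, by rwa [e0, sub_zero, ← e3]⟩
    · exact ⟨1, by rwa [e1, sub_sub, add_comm, ← e2]⟩
  by_cases hx : TouchT Ia x
  · have k := h hx
    simp only [k] at q0 q1 q2 q3
    rw [if_pos hx]
    match a with
    | 0 =>
      rw [E4.Dm0, E4.Dm0, p0, q0]
      simp only [hx, if_true]
      split_ifs with c1 c2
      · rfl
      · exact absurd (t0 c1) c2
      · simp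
      · simp
    | 1 =>
      rw [E4.Dm1, E4.Dm1, p1, q1]
      simp only [hx, if_true]
      split_ifs with c1 c2
      · rfl
      · exact absurd (t1 c1) c2
      · simp
      · simp
    | 2 =>
      rw [E4.Dm2, E4.Dm2, p2, q2]
      simp only [hx, if_true]
      split_ifs with c1 c2
      · rfl
      · exact absurd (t2 c1) c2
      · simp
      · simp
    | 3 =>
      rw [E4.Dm3, E4.Dm3, p3, q3]
      simp only [hx, if_true]
      split_ifs with c1 c2
      · rfl
      · exact absurd (t3 c1) c2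
      · simp
      · simp
  · have k : ∀ k, x - prj M (cn k) ∉ Ia := fun k hk => hx ⟨k, hk⟩
    simp only [k, or_self, if_false] at p0 p1 p2 p3
    rw [if_neg hx]
    match a with
    | 0 => rw [E4.Dm0, p0]; simp [hx]
    | 1 => rw [E4.Dm1, p1]; simp [hx]
    | 2 => rw [E4.Dm2, p2]; simp [hx]
    | 3 => rw [E4.Dm3, p3]; simp [hx]

theorem tdist_prj {v : ℤ × ℤ} {r : ℕ} (z : Tor M) (h : zd v 0 ≤ r) (hr : 2 * r < M) :
    tdist (z + prj M v) z = zd v 0 := by
  rw [← B2a.zd_lft, B2a.lft_eq z h hr]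

theorem sub_zero_of {u : ℤ × ℤ → ℝ} {pr : ℤ × ℤ → Fin 4 → Prop} {v : ℤ × ℤ}
    (h : ∀ a, ¬ pr v a) (hs : 0 ≤ ∑ a, GG u pr v a) : u v ≤ 0 := by
  simp only [GG, h, if_false, Fin.sum_univ_four] at hs
  have := B1a1.tc_pos'
  by_contra hc
  rw [not_le] at hc
  nlinarith

open Classical in
/-- The restriction to the side of the source. -/
theorem exists_LD {I Ia : Finset (Tor M)} {T q : ℕ} {x₀ : ℤ × ℤ} {a₀ : Fin 4}
    {φ : Tor M × Fin 4 → ℝ} {u w : ℤ × ℤ → ℝ} (hI : ∀ f ∈ I, tdist f 0 ≤ T)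
    (hx : zd x₀ 0 ≤ T + 1) (hS : Side I Ia (prj M x₀) (16 * q)) (h0 : TouchT Ia (prj M x₀))
    (hq : 4 ≤ q) (hT : q ≤ T) (hM : 64 * T ≤ M)
    (hφ : Dm (pwI I) *ᵥ φ = Pi.single (prj M x₀, a₀) 1)
    (h1 : ∀ v k, zd v 0 ≤ 20 * T → u v - w (v - cn k) = chi φ (prj M v) k ^ 2)
    (h2 : ∀ v, zd v 0 ≤ 20 * T + 1 →
      0 ≤ w v ∧ (prj M v ∉ I → w v = 0) ∧ (prj M v ∈ I → SupH w v))
    (h3 : ∀ v, zd v 0 + 1 ≤ 20 * T → v ≠ x₀ → 0 ≤ ∑ a, GG u ((rg I).pr 0) v a ∧
      ∑ k, chi φ (prj M v) k ^ 2 ≤ 7 * ∑ a, |GG u ((rg I).pr 0) v a|) :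
    ∃ φ' U W, LD Ia (prj M x₀) (prj M x₀, a₀) (15 * q) φ' U W ∧
      ∀ v, zd v 0 ≤ 15 * q → W v ≤ w (x₀ + v) := by
  set z := prj M x₀ with hz
  have ez : ∀ v, prj M (x₀ + v) = z + prj M v := fun v => G.prj_add _ _
  have bx : ∀ v, zd (x₀ + v) 0 ≤ T + 1 + zd v 0 := fun v => by
    have := B1a1.zd_add_le x₀ v; omega
  have sd : ∀ v, zd v 0 ≤ 16 * q → TouchT Ia (z + prj M v) → ∀ k,
      (z + prj M (v - cn k) ∈ I ↔ z + prj M (v - cn k) ∈ Ia) := fun v hv ht k => by
    rw [face_eq]; exact hS _ (B2a.td_le z hv) ht k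
  have pr0 : ∀ v a, (rg I).pr 0 (x₀ + v) a ↔ (rg I).pr z v a := fun v a => by
    rw [← congrFun (congrFun (pr_shift I 0 x₀) v) a, zero_add]
  have prs : ∀ v, zd v 0 ≤ 16 * q → TouchT Ia (z + prj M v) → ∀ a,
      ((rg I).pr z v a ↔ (rg Ia).pr z v a) := fun v hv ht a => by
    rw [pr_iff, pr_iff, sd v hv ht, sd v hv ht]
  have wf : ∀ v, zd v 0 ≤ 16 * q → TouchT Ia (z + prj M v) → ∀ k,
      (if z + prj M (v - cn k) ∈ Ia then w (x₀ + (v - cn k)) else 0) = w (x₀ + (v - cn k)) :=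
    fun v hv ht k => by
      split_ifs with c
      · rfl
      · refine ((h2 _ ?_).2.1 ?_).symm
        · have := bx (v - cn k)
          have := B1a1.zd_corner v k
          omega
        · rw [ez]; exact fun c' => c ((sd v hv ht k).1 c')
  have ch : ∀ x k, chi (fun s => if TouchT Ia s.1 then φ s else 0) x k =
      if TouchT Ia x then chi φ x k else 0 := fun x k => by
    unfold chi
    split_ifs with c <;> simp [c]
  have gg : ∀ v, zd v 0 ≤ 16 * q → ∀ a,
      GG (fun v => if TouchT Ia (z + prj M v) then u (x₀ + v) else 0) ((rg Ia).pr z) v a =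
        if TouchT Ia (z + prj M v) then GG u ((rg I).pr 0) (x₀ + v) a else 0 := fun v hv a => by
    unfold GG
    by_cases c : TouchT Ia (z + prj M v)
    · rw [if_pos c, pr0, prs v hv c]
      by_cases c' : (rg Ia).pr z v a
      · simp only [c', c, if_true, pr_touch ((pr_symm Ia z v a).2 c'), add_assoc]
      · simp only [c', c, if_true, if_false]
    · rw [if_neg c, if_neg fun c' => c (pr_touch c')]
      simp [c]
  refine ⟨fun s => if TouchT Ia s.1 then φ s else 0,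
    fun v => if TouchT Ia (z + prj M v) then u (x₀ + v) else 0,
    fun v => if z + prj M v ∈ Ia then w (x₀ + v) else 0,
    ⟨fun v k hv => ?_, fun v hv => ?_, fun v _ c => if_neg c, fun v hv c => ?_,
      fun v hv hv0 => ?_, fun t ht => ?_, fun ρ b hρ hb hc v hv1 hv2 => ?_⟩, fun v hv => ?_⟩
  · rw [ch]
    by_cases c : TouchT Ia (z + prj M v)
    · rw [if_pos c, if_pos c, wf v (by omega) c, ← add_sub_assoc, h1 _ k (by have := bx v; omega),
        ez]
    · rw [if_neg c, if_neg c, if_neg fun c' => c ((touch_iff _ _ _).2 ⟨k, c'⟩)]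
      simp
  · split_ifs
    · exact (h2 _ (by have := bx v; omega)).1
    · exact le_rfl
  · have t0 : TouchT Ia (z + prj M v) := (touch_iff _ _ _).2 ⟨0, by rwa [B1a1.sub_cn_zero]⟩
    have c' : z + prj M v ∈ I := by
      have := sd v (by omega) t0 0
      rw [B1a1.sub_cn_zero] at this
      exact this.2 c
    have h4 := (h2 (x₀ + v) (by have := bx v; omega)).2.2 (by rwa [ez])
    unfold SupH at h4 ⊢
    refine le_of_eq_of_le (sum_congr rfl fun a _ => ?_) h4
    obtain ⟨k, k', hk⟩ := nb_eq v a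
    have t1 : TouchT Ia (z + prj M (v + cn k)) :=
      (touch_iff _ _ _).2 ⟨k, by rwa [add_sub_cancel_right]⟩
    have h5 := wf (v + cn k) (by have := (B2a.zd_cn hv k).2; omega) t1 k'
    rw [← hk] at h5
    beta_reduce
    rw [h5, if_pos c, add_assoc]
  · simp only [gg v (by omega), ch]
    by_cases c : TouchT Ia (z + prj M v)
    · simp only [c, if_true]
      rw [← ez]
      exact h3 _ (by have := bx v; omega) (by simpa using hv0)
    · simp [c]
  · obtain ⟨x, a⟩ := t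
    rw [eq_restr (hS x (ht.trans (by omega))), hφ]
    split_ifs with c
    · rfl
    · have ne : (x, a) ≠ (z, a₀) := fun e => c (by rw [show x = z from congrArg Prod.fst e]; exact h0)
      rw [Pi.single_eq_of_ne ne]
  · split_ifs with c
    swap
    · exact hb
    let Ex : ℤ × ℤ → Prop := fun y => zd y x₀ < ρ ∧ TouchT Ia (prj M y)
    have ey : ∀ y, x₀ + (y - x₀) = y := fun y => by abel
    have ez' : ∀ y, z + prj M (y - x₀) = prj M y := fun y => by rw [← ez, ey]
    have key := maxp_box (18 * T) (fun y => if Ex y then min (u y - b) 0 else u y - b)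
      (fun y hy => ?_) (fun y hy hp hn => ?_) (x₀ + v) (by have := bx v; omega)
    · rw [if_neg fun c' => by have := c'.1; rw [zd_add0] at this; omega] at key
      linarith
    · have h4 : u y ≤ 0 := by
        refine sub_zero_of (fun a ha => ?_) (h3 y (by omega) (by rintro rfl; omega)).1
        obtain ⟨k, hk⟩ := (touch_iff _ _ _).1 (pr_touch ha)
        have h5 := hI _ hk
        have h6 := B1a1.zd_corner y k
        have h7 := (B2a.zd_cn (le_refl (zd (y - cn k) 0)) k).2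
        rw [sub_add_cancel] at h7
        rw [tdist_prj (r := 18 * T + 1) 0 (by omega) (by omega)] at h5
        omega
      split_ifs
      · exact min_le_right _ _
      · linarith
    · have n1 : ¬ Ex y := fun c' => by
        rw [if_pos c'] at hp
        exact absurd (min_le_right _ _) (not_le.2 hp)
      rw [if_neg n1] at hp hn ⊢
      have n2 : ∀ a, (rg I).pr 0 y a → ¬ Ex (y + st4 a) := fun a ha c' => by
        have d1 : zd (y + st4 a - x₀) 0 < ρ := by rw [zd_sub0]; exact c'.1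
        have d2 := (pr0 (y + st4 a - x₀) (a + 2)).1 (by rw [ey]; exact (pr_symm I 0 y a).2 ha)
        have d3 := (prs _ (by omega) (by rw [ez']; exact c'.2) (a + 2)).1 d2
        rw [show y + st4 a - x₀ = y - x₀ + st4 a by abel, pr_symm] at d3
        have d4 := pr_touch d3
        have d5 : zd (y - x₀) 0 = ρ := by
          have e1 := B1a1.zd_step (y + st4 a - x₀) (a + 2)
          rw [B2a.st_st, show y + st4 a - x₀ + -st4 a = y - x₀ by abel] at e1
          have e2 : ¬ zd y x₀ < ρ := fun e => n1 ⟨e, by rwa [ez'] at d4⟩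
          rw [← zd_sub0] at e2
          omega
        have d6 := hc _ d5
        beta_reduce at d6
        rw [if_pos d4, ey] at d6
        linarith
      have n3 : -(2 * tc) * u y < 0 := by
        have := B1a1.tc_pos'
        have : 0 < u y := by linarith
        nlinarith
      have n4 := B1a1.four_zero (g := GG u ((rg I).pr 0) y) (fun a => by
        unfold GG
        split_ifs with c'
        · have := hn a
          rw [if_neg (n2 a c')] at this
          linarith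
        · exact n3.le) (h3 y (by omega) (by
          rintro rfl
          exact n1 ⟨by simp only [zd, sub_self, Int.natAbs_zero, max_self]; omega, h0⟩)).1 0
      unfold GG at n4
      split_ifs at n4 with c'
      · rw [if_neg (n2 0 c')]
        linarith
      · exact absurd n4 n3.ne
  · beta_reduce
    split_ifs
    · exact le_rfl
    · exact (h2 _ (by have := bx v; omega)).1

end Vale.Agent.P144Z.IN5a
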