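import Vale.Agent.P144D.I.N5a.B
import Vale.Agent.P144D.B.RkInt
import Vale.Agent.P144D.B.Dual

/-!
Consequences of the data near the source.
-/

namespace Vale.Agent.P144Z.IN5a

open Finset Matrix

variable {M : ℕ} [NeZero M] {I : Finset (Tor M)} {z : Tor M} {a₀ : Fin 4} {R : ℕ}
  {φ : Tor M × Fin 4 → ℝ} {U W : ℤ × ℤ → ℝ}

theorem zd_rev (c v : ℤ × ℤ) : zd c 0 ≤ zd (c + v) 0 + zd v 0 := by
  simp only [zd, Prod.fst_zero, Prod.snd_zero, sub_zero, Prod.fst_add, Prod.snd_add]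
  omega

theorem ne_zero_of {c v : ℤ × ℤ} (h : zd v 0 < zd c 0) : c + v ≠ 0 := fun e => by
  have h1 := zd_rev c v
  rw [e] at h1
  simp only [zd, sub_self, Int.natAbs_zero, max_self, zero_add] at h1 h
  omega

theorem LD.W_le (h : LD I z (z, a₀) R φ U W) {v : ℤ × ℤ} (hv : zd v 0 ≤ R) (k : Fin 4) :
    W (v - cn k) ≤ U v := by linarith [h.dif v k hv, sq_nonneg (chi φ (z + prj M v) k)]

theorem LD.W_le0 (h : LD I z (z, a₀) R φ U W) {v : ℤ × ℤ} (hv : zd v 0 ≤ R) : W v ≤ U v := by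
  simpa only [B1a1.sub_cn_zero] using h.W_le hv 0

theorem LD.U_nn (h : LD I z (z, a₀) R φ U W) {v : ℤ × ℤ} (hv : zd v 0 ≤ R) : 0 ≤ U v :=
  (h.nn v (by omega)).trans (h.W_le0 hv)

theorem LD.pair (h : LD I z (z, a₀) R φ U W) {c : ℤ × ℤ} {r : ℕ} (h1 : r ≤ zd c 0)
    (h2 : zd c 0 + r ≤ R) : IsPair r (fun v => U (c + v)) (fun v => W (c + v))
      ((rg I).pr (z + prj M c)) ((rg I).out (z + prj M c)) := by
  have ez : ∀ v, z + prj M c + prj M v = z + prj M (c + v) := fun v => by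
    rw [G.prj_add, add_assoc]
  refine ⟨fun v k hv => ?_, fun v hv ho => ?_, fun v a hp => ?_, pr_symm I _,
    fun v hv => ?_, fun v hv ho => ?_⟩
  · have := B1a1.zd_add_le c v
    rw [← add_sub_assoc]
    exact h.W_le (by omega) k
  · have := B1a1.zd_add_le c v
    rw [out_iff, ez] at ho
    exact h.zero _ (by omega) ho
  · rw [pr_iff, not_or] at hp
    rwa [out_iff, out_iff]
  · have := B1a1.zd_add_le c v
    simp only [pr_shift, B1a1.GG_shift]
    exact (h.sub _ (by omega) (ne_zero_of (by omega))).1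
  · have := B1a1.zd_add_le c v
    rw [out_iff, ez, not_not] at ho
    simpa only [SupH, add_assoc] using h.sup _ (by omega) ho

theorem LD.hom (h : LD I z (z, a₀) R φ U W) (hM : 2 * R < M) {c : ℤ × ℤ} {r : ℕ}
    (h1 : r < zd c 0) (h2 : zd c 0 + r ≤ R) : Hom (pwI I) (z + prj M c) r φ := by
  intro t ht
  have e := tdist_prj z (show zd c 0 ≤ R by omega) hM
  have h3 := tdist_triangle t.1 (z + prj M c) z
  rw [h.eq t (by omega)]
  refine Pi.single_eq_of_ne (fun e' => ?_) _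
  rw [e', tdist_comm] at ht
  simp only at ht
  omega

/-- The local bound of the field. -/
theorem LD.l2 : ∃ C : ℝ, 1 ≤ C ∧ ∀ (M : ℕ) [NeZero M] (I : Finset (Tor M)) (z : Tor M)
    (a₀ : Fin 4) (R : ℕ) (φ : Tor M × Fin 4 → ℝ) (U W : ℤ × ℤ → ℝ), LD I z (z, a₀) R φ U W →
    ∀ (c : ℤ × ℤ) (r : ℕ) (S : ℝ), 2 * r + 3 ≤ zd c 0 → zd c 0 + 2 * r + 3 ≤ R →
    (∀ v, zd v 0 ≤ 2 * r + 3 → U (c + v) ≤ S) →
      l2sq (ball (z + prj M c) r) φ ≤ C * (r + 1) * S := by
  obtain ⟨C, hC, H⟩ := B2b2.loc_l2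
  refine ⟨C * 7, by linarith, fun M _ I z a₀ R φ U W h c r S h1 h2 hS => ?_⟩
  have h3 := H M (rg I) (z + prj M c) (2 * r + 3) φ _ _ 7 (by norm_num) (h.pair h1 (by omega))
    (fun v hv => by
      have := B1a1.zd_add_le c v
      simp only [pr_shift, B1a1.GG_shift, vx_eq, add_assoc, ← G.prj_add]
      exact (h.sub _ (by omega) (ne_zero_of (by omega))).2) 0 r S (by simp [zd]) fun v hv => by
      have := B1a1.zd_add_le c v
      rw [zero_add, abs_of_nonneg (h.U_nn (by omega))]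
      exact hS v hv
  rwa [vx_eq, G.prj_zero, add_zero] at h3

/-- The subharmonic function is bounded by the superharmonic one at the inner faces. -/
theorem LD.face (h : LD I z (z, a₀) R φ U W) (hM : 2 * R < M) {f : ℤ × ℤ} (h1 : 2 < zd f 0)
    (h2 : zd f 0 + 2 ≤ R) (hf : z + prj M f ∈ I) (k : Fin 4) : U (f + cn k) ≤ 141 * W f := by
  have hh := h.hom hM h1 h2
  set y := z + prj M f with hy
  have ez : ∀ v, y + prj M v = z + prj M (f + v) := fun v => by rw [G.prj_add, hy, add_assoc]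
  have e0 : ∀ v, y + prj M (v + (1, 0)) = y + prj M v + uv M 0 := fun v => by
    rw [G.prj_add, G.uv_zero, ← add_assoc]
  have e1 : ∀ v, y + prj M (v + (0, 1)) = y + prj M v + uv M 1 := fun v => by
    rw [G.prj_add, G.uv_one, ← add_assoc]
  have hd : B2a.Dat 0 (fun v i => pwI I (y + prj M v, i)) (fun _ _ => 1)
      (fun v => chi φ (y + prj M v)) (fun v => U (f + v)) fun v => W (f + v) := by
    refine ⟨fun _ _ => by simp, fun _ _ => by simp, fun v hv => ?_, fun v hv => ?_,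
      fun v k hv => ?_⟩
    · rw [e0, mul_one]
      exact B2a.edE (hh _ (B2a.td_le y (by omega)))
        (hh _ (by rw [← e0]; exact B2a.td_le y (B2a.zd_cn hv 1).2))
    · rw [e1, mul_one]
      exact B2a.edN (hh _ (B2a.td_le y (by omega)))
        (hh _ (by rw [← e1]; exact B2a.td_le y (B2a.zd_cn hv 3).2))
    · have := B1a1.zd_add_le f v
      rw [← add_sub_assoc, ez]
      exact h.dif _ k (by omega)
  have z0 : zd (0 : ℤ × ℤ) 0 ≤ 0 := by simp [zd]
  have w0 := h.nn f (by omega)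
  have nb := nb_le (h.sup f (by omega) hf) fun a => h.nn _ (by have := B1a1.zd_step f a; omega)
  have hP : ∀ a, B2a.PF (fun v i => pwI I (y + prj M v, i)) 0 a = 1 := fun a => by
    fin_cases a
    · simp [B2a.PF, Reg.pw, G.prj_zero, hf]
    · simp [B2a.PF, Reg.pw, G.prj_zero, hf]
    · simp [B2a.PF, Reg.pw, oth, ← G.uv_zero, hf]
    · simp [B2a.PF, Reg.pw, oth, ← G.uv_one, hf]
  have h3 := (hd.fest z0).2
  have h4 : ∀ a, |B2a.FQ (B2a.PF (fun _ _ => (1 : ℝ)) 0)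
      (fun k => chi φ (y + prj M (0 + cn k)) k) a| ≤ 5 * W f := fun a => by
    rw [← (hd.face z0 a).1 (hP a), zero_sub, ← B2a.st_st, add_zero]
    have := nb (a + 2)
    have := h.nn (f + st4 (a + 2)) (by have := B1a1.zd_step f (a + 2); omega)
    exact abs_le.2 ⟨by linarith, by linarith⟩
  have h5 := single_le_sum (f := fun k => chi φ (y + prj M (0 + cn k)) k ^ 2)
    (fun _ _ => sq_nonneg _) (mem_univ k)
  have h6 := h.dif (f + cn k) k (by have := (B2a.zd_cn (le_refl (zd f 0)) k).2; omega)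
  rw [add_sub_cancel_right, ← ez, ← zero_add (cn k)] at h6
  have h7 := sum_le_sum fun a (_ : a ∈ univ) => h4 a
  simp only [sum_const, card_univ, Fintype.card_fin, nsmul_eq_mul, Nat.cast_ofNat] at h7
  rw [zero_add] at h6 h5
  simp only [zero_add] at h3 h5 h7
  linarith

theorem comm_le {t a d b y : ℝ} (ht : t ^ 2 ≤ 1) (ha : a = 0 ∨ a = 1) (hd : |d| ≤ b) {P : Prop}
    [Decidable P] (hP : d ≠ 0 → P) : (t * (a * d * y)) ^ 2 ≤ b ^ 2 * (if P then y ^ 2 else 0) := by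
  rcases ha with rfl | rfl
  · have : 0 ≤ b ^ 2 * (if P then y ^ 2 else 0) := by positivity
    simpa using this
  · exact E1.comm_le ht (one_mul 1) hd hP

omit [NeZero M] in
theorem pw01 (I : Finset (Tor M)) (e : Tor M × Fin 2) : pwI I e = 0 ∨ pwI I e = 1 := by
  simp only [Reg.pw, Bool.false_eq_true, if_false]
  split_ifs <;> simp

/-- The commutator with a cut-off. -/
theorem cutoff {A : Gauge M} (hA : ∀ e, A e = 0 ∨ A e = 1) {η : Tor M → ℝ} {b : ℝ}
    (hb : ∀ x i, |η (x + uv M i) - η x| ≤ b) {B : Finset (Tor M)}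
    (hB : ∀ x i, η (x + uv M i) ≠ η x → x ∈ B ∧ x + uv M i ∈ B) (φ : Tor M × Fin 4 → ℝ) :
    l2sq univ (Dm A *ᵥ (fun s => η s.1 * φ s) - fun s => η s.1 * (Dm A *ᵥ φ) s) ≤
      b ^ 2 * l2sq B φ := by
  set F : Fin 4 → Tor M → ℝ := fun a x => b ^ 2 * (if x ∈ B then φ (x, a) ^ 2 else 0) with hF
  have key : ∀ x : Tor M, ∑ a, (Dm A *ᵥ (fun s => η s.1 * φ s) -
      fun s => η s.1 * (Dm A *ᵥ φ) s : Tor M × Fin 4 → ℝ) (x, a) ^ 2 ≤
      F 2 (x + uv M 0) + F 3 (x + uv M 1) + F 0 (x - uv M 0) + F 1 (x - uv M 1) := by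
    intro x
    rw [Fin.sum_univ_four]
    simp only [Pi.sub_apply, E4.Dm0, E4.Dm1, E4.Dm2, E4.Dm3]
    have h0 := comm_le (y := φ (x + uv M 0, 2)) E1.tc_sq (hA (x, 0)) (hb x 0)
      (P := x + uv M 0 ∈ B) fun h => (hB x 0 (sub_ne_zero.1 h)).2
    have h1 := comm_le (y := φ (x + uv M 1, 3)) E1.tc_sq (hA (x, 1)) (hb x 1)
      (P := x + uv M 1 ∈ B) fun h => (hB x 1 (sub_ne_zero.1 h)).2
    have h2 := comm_le (y := φ (x - uv M 0, 0)) E1.tc_sq (hA (x - uv M 0, 0))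
      (hb (x - uv M 0) 0) (P := x - uv M 0 ∈ B) fun h => (hB _ 0 (sub_ne_zero.1 h)).1
    have h3 := comm_le (y := φ (x - uv M 1, 1)) E1.tc_sq (hA (x - uv M 1, 1))
      (hb (x - uv M 1) 1) (P := x - uv M 1 ∈ B) fun h => (hB _ 1 (sub_ne_zero.1 h)).1
    rw [sub_add_cancel] at h2 h3
    simp only [hF]
    refine le_of_eq_of_le ?_ (add_le_add (add_le_add (add_le_add h0 h1) h2) h3)
    ring
  refine (Finset.sum_le_sum fun x _ => key x).trans (le_of_eq ?_)
  simp only [Finset.sum_add_distrib, E1.sum_shift, E1.sum_shift']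
  simp only [hF, ← Finset.mul_sum, Finset.sum_ite_mem, Finset.univ_inter, l2sq, Fin.sum_univ_four,
    Finset.sum_add_distrib]
  ring

omit [NeZero M] in
theorem l2sq_cover (Z : Finset (Tor M)) (B : Tor M → Finset (Tor M)) (φ : Tor M × Fin 4 → ℝ) :
    l2sq (Z.biUnion B) φ ≤ ∑ c ∈ Z, l2sq (B c) φ := by
  induction Z using Finset.induction_on with
  | empty => simp [l2sq]
  | insert c Z hc ih =>
    rw [biUnion_insert, sum_insert hc]
    have h1 : l2sq (B c ∪ Z.biUnion B) φ + l2sq (B c ∩ Z.biUnion B) φ =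
        l2sq (B c) φ + l2sq (Z.biUnion B) φ := sum_union_inter
    linarith [E3.l2sq_nonneg (B c ∩ Z.biUnion B) φ]

/-- The lower bound on a contour, by duality with a test function. -/
theorem lower : ∃ C : ℝ, 1 ≤ C ∧ ∀ (M : ℕ) [NeZero M] (I : Finset (Tor M)) (z : Tor M)
    (a₀ : Fin 4) (R : ℕ) (φ : Tor M × Fin 4 → ℝ) (U W : ℤ × ℤ → ℝ), LD I z (z, a₀) R φ U W →
    ∀ (l : ℕ) (g : Tor M × Fin 4 → ℝ) (ν c S : ℝ), 1 ≤ l → 25 * l ≤ R → g (z, a₀) = 1 →
    Hom (pwI I) z (24 * l) g → l2sq (ball z (24 * l)) g * ν ^ 2 ≤ c ^ 2 * (8 * l) → 0 ≤ S →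
    (∀ v, zd v 0 = 10 * l → U v ≤ S) → ν ^ 2 ≤ C * c ^ 2 * S := by
  obtain ⟨C, hC, H⟩ := LD.l2
  refine ⟨41 ^ 2 * C, by nlinarith, fun M _ I z a₀ R φ U W h l g ν c S hl hR hg hom test hS hU => ?_⟩
  have l0 : (1 : ℝ) ≤ l := by exact_mod_cast hl
  obtain ⟨η, -, η1, η0, ηl⟩ := exists_cutoff z (16 * l) (w := 4 * l) (by omega)
  let B : Finset (Tor M) := univ.filter fun x => 16 * l ≤ tdist x z ∧ tdist x z ≤ 20 * l
  have c1 := cutoff (pw01 I) ηl (B := B) (fun x i hx => by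
    have a1 := E1.near_add x z i
    have a2 := E1.near_add' x z i
    have a3 : ¬ (tdist x z ≤ 16 * l ∧ tdist (x + uv M i) z ≤ 16 * l) := fun k =>
      hx (by rw [η1 _ k.1, η1 _ k.2])
    have a4 : ¬ (16 * l + 4 * l ≤ tdist x z ∧ 16 * l + 4 * l ≤ tdist (x + uv M i) z) := fun k =>
      hx (by rw [η0 _ k.1, η0 _ k.2])
    simp only [B, mem_filter, mem_univ, true_and]
    omega) φ
  set σ := (Dm (pwI I) *ᵥ (fun s => η s.1 * φ s) - fun s => η s.1 * (Dm (pwI I) *ᵥ φ) s) with hσ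
  have c2 : (σ ⬝ᵥ g) ^ 2 ≤ l2sq univ σ * l2sq (ball z (24 * l)) g := by
    refine E5.dot_sq_le (fun t ht => ?_) g
    obtain ⟨x, a⟩ := t
    rw [G.mem_ball, not_le] at ht
    simp only at ht
    have a0 := η0 x (by omega)
    have a1 := fun i => η0 (x + uv M i) (by have := E1.near_add' x z i; omega)
    have a2 := fun i => η0 (x - uv M i) (by
      have := E1.near_add (x - uv M i) z i; rw [sub_add_cancel] at this; omega)
    rw [hσ, Pi.sub_apply]
    match a with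
    | 0 => rw [E4.Dm0]; simp [a0, a1]
    | 1 => rw [E4.Dm1]; simp [a0, a1]
    | 2 => rw [E4.Dm2]; simp [a0, a2]
    | 3 => rw [E4.Dm3]; simp [a0, a2]
  have c3 : σ ⬝ᵥ g = -1 := by
    have e1 : (Dm (pwI I) *ᵥ fun s => η s.1 * φ s) ⬝ᵥ g = 0 := by
      rw [← neg_eq_zero, ← B3b.dot_anti]
      refine sum_eq_zero fun t _ => ?_
      by_cases ht : tdist t.1 z ≤ 24 * l
      · rw [hom t ht, mul_zero]
      · beta_reduce
        rw [η0 t.1 (by omega), zero_mul, zero_mul]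
    have e2 : (fun s => η s.1 * (Dm (pwI I) *ᵥ φ) s) = Pi.single (z, a₀) 1 := by
      funext t
      by_cases ht : tdist t.1 z ≤ R
      · rw [h.eq t ht]
        by_cases e : t = (z, a₀)
        · rw [e, η1 _ (by simp [tdist_self]), one_mul]
        · rw [Pi.single_eq_of_ne e, mul_zero]
      · rw [η0 _ (by omega), zero_mul, Pi.single_eq_of_ne]
        rintro rfl
        exact ht (by simp [tdist_self])
    rw [hσ, sub_dotProduct, e1, e2, single_dotProduct, hg]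
    ring
  obtain ⟨Z, Z1, Z2, Z3⟩ := cover_ball z (20 * l) hl
  have c4 : l2sq B φ ≤ 41 ^ 2 * (C * (l + 1) * S) := by
    let Z' := Z.filter fun c => 15 * l ≤ tdist c z
    have s1 : B ⊆ Z'.biUnion fun c => ball c l := fun x hx => by
      simp only [B, mem_filter, mem_univ, true_and] at hx
      obtain ⟨c, hc, hd⟩ := Z3 x hx.2
      have := tdist_triangle x c z
      exact mem_biUnion.2 ⟨c, mem_filter.2 ⟨hc, by omega⟩, G.mem_ball.2 hd⟩
    have s2 : ∀ c ∈ Z', l2sq (ball c l) φ ≤ C * (l + 1) * S := fun c hc => by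
      obtain ⟨k1, k2⟩ := mem_filter.1 hc
      have k3 := Z2 c k1
      rw [← B2a.zd_lft] at k2 k3
      rw [← G.add_prj_lft c z]
      refine H M I z a₀ R φ U W h _ l S (by omega) (by omega) fun v hv => ?_
      have := B1a1.zd_add_le (lft (c - z)) v
      have := zd_rev (lft (c - z)) v
      exact h.mp (10 * l) S (by omega) hS hU _ (by omega) (by omega)
    have s3 : (Z'.card : ℝ) ≤ 41 ^ 2 := by
      refine le_trans (by exact_mod_cast card_filter_le _ _) (Z1.trans_eq ?_)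
      push_cast
      field_simp
      norm_num
    refine (E3.l2sq_mono s1 φ).trans ((l2sq_cover _ _ _).trans ?_)
    refine (sum_le_card_nsmul _ _ _ s2).trans ?_
    rw [nsmul_eq_mul]
    exact mul_le_mul_of_nonneg_right s3 (by positivity)
  rw [c3] at c2
  have g0 := E3.l2sq_nonneg (ball z (24 * l)) g
  have c5 : l2sq univ σ * l ≤ 41 ^ 2 * C * S / 8 := by
    have k1 : l2sq univ σ ≤ (1 / (4 * l)) ^ 2 * (41 ^ 2 * (C * (2 * l) * S)) := by
      push_cast at c1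
      refine c1.trans (mul_le_mul_of_nonneg_left (c4.trans ?_) (sq_nonneg _))
      gcongr
      linarith
    refine (mul_le_mul_of_nonneg_right k1 (by positivity)).trans_eq ?_
    field_simp
    ring
  have c6 := mul_le_mul_of_nonneg_left test (E3.l2sq_nonneg univ σ)
  have c7 := mul_le_mul_of_nonneg_right c2 (sq_nonneg ν)
  have c8 := mul_le_mul_of_nonneg_left c5 (sq_nonneg c)
  nlinarith

end Vale.Agent.P144Z.IN5a
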