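import Vale.Agent.P144D.I.N5a.C

/-!
The superharmonic function on the deep part of a square dominates the subharmonic function on the
contour.
-/

namespace Vale.Agent.P144Z.IN5a

open Finset Matrix

variable {M : ℕ}

/-- The geometry near a marked vertex. -/
structure Cn (I : Finset (Tor M)) (z : Tor M) (ν : ℂ) (e : Fin 4) (κ : ℝ) (R : ℕ) : Prop where
  norm : ‖ν‖ = 1
  dir : 1 / 2 ≤ ht ν (st4 e)
  out : ∀ ρ : ℕ, 1 ≤ ρ → 3 * ρ ≤ R → OutH I z ν (3 * ρ) (8 * κ * ρ + 2)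
  inn : ∀ ρ : ℕ, 1 ≤ ρ → 3 * ρ ≤ R → InH I z ν (3 * ρ) (8 * κ * ρ + 2)
  ray : ∀ v, zd v 0 + 1 ≤ R → z + prj M v ∈ I → z + prj M (v + st4 e) ∈ I

theorem len_zd (v : ℤ × ℤ) : len v ≤ 2 * zd v 0 := by
  have h := B1b.abs_le_zd v
  linarith [GeoA.len_le v, h.1, h.2]

theorem exists_Cn {I : Finset (Tor M)} {z : Tor M} {e : Fin 4} {κ : ℝ} {r R : ℕ}
    (h : MkT I κ r z e) (h0 : 0 ≤ κ) (h1 : 4 * κ ≤ 1) (hR : R ≤ r) (hr : 1 ≤ r) :
    ∃ ν, Cn I z ν e κ R := by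
  obtain ⟨S, ν, hν, hS, he, hI⟩ := h.cone
  have cz : ∀ k, zd (0 - cn k) 0 ≤ 1 := fun k => by simpa [zd] using B1a1.zd_corner 0 k
  have fz : ∀ k, z + prj M (0 - cn k) = z - prj M (cn k) := fun k => by
    rw [face_eq, G.prj_zero, add_zero]
  have key : ∀ (ρ : ℕ) (v f : ℤ × ℤ), 1 ≤ ρ → zd v 0 ≤ 3 * ρ → zd f 0 ≤ 1 →
      κ * len (v - f) ≤ 8 * κ * ρ ∧ κ * len (f - v) ≤ 8 * κ * ρ ∧ |ht ν f| ≤ 2 := by
    intro ρ v f hρ hv hf
    have a1 : (zd (v - f) 0 : ℝ) ≤ 4 * ρ := by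
      have := B1b.zd_sub v f
      exact_mod_cast (by omega : zd (v - f) 0 ≤ 4 * ρ)
    have a2 : (zd (f - v) 0 : ℝ) ≤ 4 * ρ := by
      have := B1b.zd_sub f v
      exact_mod_cast (by omega : zd (f - v) 0 ≤ 4 * ρ)
    have a3 : (zd f 0 : ℝ) ≤ 1 := by exact_mod_cast hf
    exact ⟨by nlinarith [len_zd (v - f)], by nlinarith [len_zd (f - v)],
      by linarith [B1b.abs_ht_le hν f]⟩
  refine ⟨ν, hν, he, fun ρ hρ h3 v hv hw hin => ?_, fun ρ hρ h3 v hv hw => ?_, fun v hv hin => ?_⟩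
  · have a1 : 0 - cn (e + 1) ∉ S := fun c =>
      h.rem.1 (by rw [← fz]; exact (hI _ ((cz _).trans hr)).2 c)
    obtain ⟨-, b2, b3⟩ := key ρ v _ hρ hv (cz (e + 1))
    exact GeoA.epi_out hS a1 (x := v) (by rw [B1b.ht_sub]; linarith [(abs_le.1 b3).1])
      ((hI v (by omega)).1 hin)
  · obtain ⟨k, hk⟩ := h.touch
    have a1 : 0 - cn k ∈ S := (hI _ ((cz _).trans hr)).1 (by rwa [fz])
    obtain ⟨b1, -, b3⟩ := key ρ v _ hρ hv (cz k)
    have a2 := hS _ a1 (v - (0 - cn k)) (by rw [B1b.ht_sub]; linarith [(abs_le.1 b3).2])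
    rw [add_sub_cancel] at a2
    exact (hI v (by omega)).2 a2
  · refine (hI _ (by have := B1a1.zd_step v e; omega)).2 (hS _ ((hI v (by omega)).1 hin) _ ?_)
    have a1 := len_zd (st4 e)
    rw [B1a1.zd_st4] at a1
    push_cast at a1
    nlinarith

/-- The lower bound on the deep part of the square of radius `2 ρ`. -/
def Q (W : ℤ × ℤ → ℝ) (ν : ℂ) (ρ : ℕ) (β : ℝ) : Prop :=
  ∀ y, zd y 0 ≤ 2 * ρ → (ρ : ℝ) / 4 ≤ ht ν y → β ≤ W y

theorem Q.mono {W : ℤ × ℤ → ℝ} {ν : ℂ} {ρ : ℕ} {β β' : ℝ} (h : Q W ν ρ β) (hb : β' ≤ β) :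
    Q W ν ρ β' := fun y h1 h2 => hb.trans (h y h1 h2)

theorem zd_smul (n : ℕ) (e : Fin 4) : zd (n • st4 e) 0 = n := by
  fin_cases e <;> simp [zd, st4]

theorem ht_smul (ν : ℂ) (n : ℕ) (v : ℤ × ℤ) : ht ν (n • v) = n * ht ν v := by
  simp [ht]; ring

/-- The statement of the Harnack chain. -/
def Ch (c : ℝ) : Prop := ∀ (n : ℕ) (W : ℤ × ℤ → ℝ) (ν : ℂ)
    (R ρ m : ℕ) (w₀ h β : ℝ) (x y : ℤ × ℤ), ‖ν‖ = 1 → (∀ v, zd v 0 ≤ R + 1 → 0 ≤ W v) →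
    (∀ v, zd v 0 ≤ R → w₀ ≤ ht ν v → SupH W v) → 1 ≤ m → ρ + 3 * m ≤ R → w₀ + 6 * m + 2 ≤ h →
    zd x 0 ≤ ρ → zd y 0 ≤ ρ → h ≤ ht ν x → h ≤ ht ν y → zd x y ≤ n * m → 1 ≤ n → 0 ≤ β →
    (∀ p, zd p x ≤ m → β ≤ W p) → c ^ n * β ≤ W y

variable [NeZero M] {I : Finset (Tor M)} {z : Tor M} {a₀ e : Fin 4} {R : ℕ} {ν : ℂ} {κ c : ℝ}
  {φ : Tor M × Fin 4 → ℝ} {U W : ℤ × ℤ → ℝ}

theorem zd_two (x y : ℤ × ℤ) : zd x y ≤ zd x 0 + zd y 0 := by
  have := GeoA.zd_tri x 0 y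
  rwa [GeoA.zd_comm 0 y] at this

/-- Doubling of the scale. -/
theorem dbl (hc : Ch c) (h : LD I z (z, a₀) R φ U W) (g : Cn I z ν e κ R) (hκ : 1000 * κ ≤ 1)
    {ρ' ρ : ℕ} (h1 : 64 ≤ ρ') (h2 : ρ' ≤ ρ) (h3 : ρ ≤ 2 * ρ' + 1) (h4 : 3 * ρ ≤ R) {β : ℝ}
    (hβ : 0 ≤ β) (hQ : Q W ν ρ' β) : Q W ν ρ (c ^ 768 * β) := by
  intro y hy hy'
  have r1 : (64 : ℝ) ≤ ρ' := by exact_mod_cast h1
  have r2 : (ρ' : ℝ) ≤ ρ := by exact_mod_cast h2
  have r3 : (ρ : ℝ) ≤ 2 * ρ' + 1 := by exact_mod_cast h3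
  have r4 : 64 * ((ρ' / 64 : ℕ) : ℝ) ≤ ρ' := by exact_mod_cast (by omega : 64 * (ρ' / 64) ≤ ρ')
  have hx : (ρ' : ℝ) / 2 ≤ ht ν (ρ' • st4 e) := by rw [ht_smul]; nlinarith [g.dir]
  have zx := zd_smul ρ' e
  refine hc 768 W ν (3 * ρ) (2 * ρ) (ρ' / 64) (8 * κ * ρ + 2) (ρ' / 4) β (ρ' • st4 e) y g.norm
    (fun v hv => h.nn v (by omega))
    (fun v hv hw => h.sup v (by omega) (g.inn ρ (by omega) h4 v hv hw)) (by omega) (by omega)
    (by nlinarith) (by omega) hy (by linarith) (by linarith)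
    (by have := zd_two (ρ' • st4 e) y; omega) (by norm_num) hβ fun p hp => hQ p ?_ ?_
  · have := GeoA.zd_tri p (ρ' • st4 e) 0
    omega
  · linarith [(ht_near g.norm hp).1]

theorem climb (hc : Ch c) (c0 : 0 < c) (h : LD I z (z, a₀) R φ U W)
    (g : Cn I z ν e κ R) (hκ : 1000 * κ ≤ 1) {ρ' : ℕ} (h1 : 64 ≤ ρ') {β : ℝ} (hβ : 0 ≤ β)
    (hQ : Q W ν ρ' β) (k : ℕ) : ∀ ρ, ρ' ≤ ρ → ρ ≤ 2 ^ k * ρ' → 3 * ρ ≤ R →
      Q W ν ρ ((c ^ 768) ^ k * β) := by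
  induction k with
  | zero =>
    intro ρ h2 h3 _
    obtain rfl : ρ = ρ' := by omega
    simpa using hQ
  | succ k ih =>
    intro ρ h2 h3 h4
    have h5 := ih (max ρ' (ρ / 2)) (le_max_left _ _) (max_le
      (Nat.le_mul_of_pos_left _ (by positivity)) (by rw [pow_succ, mul_right_comm] at h3; omega)) (by omega)
    have h6 := dbl hc h g hκ (ρ := ρ) (by omega) (by omega) (by omega) h4 (by positivity) h5
    rwa [← mul_assoc, ← pow_succ'] at h6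

/-- The small scales. -/
theorem base (h : LD I z (z, a₀) R φ U W) (g : Cn I z ν e κ R) (hκ : 1000 * κ ≤ 1)
    (hM : 2 * R < M) {ρ N : ℕ} (h1 : 64 ≤ ρ) (h2 : ρ ≤ N) (h4 : 3 * ρ ≤ R) {v : ℤ × ℤ}
    (hv : zd v 0 = ρ) : Q W ν ρ ((1 / 16) ^ (5 * N) * ((1 / 4) ^ N * (1 / 141)) * U v) := by
  intro y hy hy'
  have r1 : (64 : ℝ) ≤ ρ := by exact_mod_cast h1
  by_cases ht0 : TouchT I (z + prj M v)
  swap
  · have a1 := sub_zero_of (fun a ha => ht0 (pr_touch ha)) (h.sub v (by omega) (by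
      rintro rfl; simp [zd] at hv; omega)).1
    exact (mul_nonpos_of_nonneg_of_nonpos (by positivity) a1).trans (h.nn y (by omega))
  obtain ⟨k, hk⟩ := (touch_iff _ _ _).1 ht0
  have b1 := B1a1.zd_corner v k
  have b2 := (B2a.zd_cn (le_refl (zd (v - cn k) 0)) k).2
  have b3 := h.face hM (f := v - cn k) (by rw [sub_add_cancel] at b2; omega) (by omega) hk k
  rw [sub_add_cancel] at b3
  generalize v - cn k = f at *
  have b4 : ∀ t : ℕ, zd (f + t • st4 e) 0 ≤ ρ + 1 + t := fun t => by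
    have := B1a1.zd_add_le f (t • st4 e)
    rw [zd_smul] at this
    omega
  have b5 : ∀ t ≤ ρ, z + prj M (f + t • st4 e) ∈ I ∧ (1 / 4) ^ t * W f ≤ W (f + t • st4 e) := by
    intro t
    induction t with
    | zero => intro _; simpa using hk
    | succ t ih =>
      intro ht
      obtain ⟨i1, i2⟩ := ih (by omega)
      have i3 := g.ray _ (by have := b4 t; omega) i1
      rw [add_assoc, ← succ_nsmul] at i3
      have i4 := nb_le (h.sup _ (by have := b4 (t + 1); omega) i3) (fun a => h.nn _ (by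
        have := b4 (t + 1)
        have := B1a1.zd_step (f + (t + 1) • st4 e) a
        omega)) (e + 2)
      rw [B2a.st_st, succ_nsmul, ← add_assoc, add_neg_cancel_right, add_assoc, ← succ_nsmul] at i4
      exact ⟨i3, by rw [pow_succ]; linarith⟩
  have b6 : -(8 * κ * ρ + 2) < ht ν f := not_le.1 fun c =>
    g.out ρ (by omega) h4 f (by omega) c hk
  have b7 := deep_walk (5 * N) W (R := 3 * ρ) (ρ := 2 * ρ + 1) (w₀ := 8 * κ * ρ + 2) (h := ρ / 4)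
    (x := f + ρ • st4 e) (y := y) g.norm (fun v hv => h.nn v (by omega))
    (fun v hv hw => h.sup v (by omega) (g.inn ρ (by omega) h4 v hv hw)) (by omega) (by nlinarith)
    (by have := b4 ρ; omega) (by omega) (by rw [B1b.ht_add, ht_smul]; nlinarith [g.dir]) hy'
    (by have := b4 ρ; have := zd_two (f + ρ • st4 e) y; omega) (by omega)
  refine le_trans ?_ b7
  rw [mul_assoc]
  refine mul_le_mul_of_nonneg_left (le_trans ?_ (b5 ρ le_rfl).2) (by positivity)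
  rw [mul_assoc]
  exact mul_le_mul (pow_le_pow_of_le_one (by norm_num) (by norm_num) h2) (by linarith)
    (mul_nonneg (by norm_num) (h.U_nn (by omega))) (by positivity)

end Vale.Agent.P144Z.IN5a
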