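import Vale.Agent.P144D.I.N5a.D

/-!
The case where the subharmonic function does not decay fast.
-/

namespace Vale.Agent.P144Z.IN5a

open Finset Matrix

variable {M : ℕ} [NeZero M] {I : Finset (Tor M)} {z : Tor M} {a₀ e : Fin 4} {R : ℕ} {ν : ℂ}
  {κ c : ℝ} {φ : Tor M × Fin 4 → ℝ} {U W : ℤ × ℤ → ℝ}

/-- A point of the contour where the function is large is deep. -/
theorem depth : ∃ C : ℝ, 1 ≤ C ∧ ∀ (M : ℕ) [NeZero M] (I : Finset (Tor M)) (z : Tor M)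
    (a₀ e : Fin 4) (R : ℕ) (ν : ℂ) (κ : ℝ) (φ : Tor M × Fin 4 → ℝ) (U W : ℤ × ℤ → ℝ),
    LD I z (z, a₀) R φ U W → Cn I z ν e κ R → 0 ≤ κ → ∀ (ρ : ℕ) (v : ℤ × ℤ) (S : ℝ), 2 ≤ ρ →
    3 * ρ ≤ R → zd v 0 = ρ → (∀ p, ρ / 2 ≤ zd p 0 → zd p 0 ≤ R → U p ≤ S) →
      U v * ρ ≤ C * S * (max (ht ν v) 0 + (8 * κ * ρ + 2) + 3) := by
  obtain ⟨C, hC, H⟩ := pair_decay
  refine ⟨4 * C, by linarith, fun M _ I z a₀ e R ν κ φ U W h g hκ ρ v S h1 h2 hv hS => ?_⟩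
  have m0 := le_max_right (ht ν v) 0
  have m1 := le_max_left (ht ν v) 0
  have ho : OutH (rg I).In (z + prj M v) ν (ρ / 2 + 1) (max (ht ν v) 0 + (8 * κ * ρ + 2)) :=
    fun p hp hw => by
      have := B1a1.zd_add_le v p
      rw [add_assoc, ← G.prj_add]
      exact g.out ρ (by omega) h2 _ (by omega) (by rw [B1b.ht_add]; linarith)
  have h3 := (H (ρ / 2) _ _ _ _ (h.pair (c := v) (by omega) (by omega)) ν
    (max (ht ν v) 0 + (8 * κ * ρ + 2) + 2) S g.norm (by positivity)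
    (fun p hp hw => HomDec.out_of_ht g.norm ho (by omega) hw) (fun p hp => by
      have := B1a1.zd_add_le v p
      have := zd_rev v p
      have a1 := hS (v + p) (by omega) (by omega)
      rw [abs_of_nonneg (h.U_nn (by omega)), abs_of_nonneg (h.nn _ (by omega))]
      exact ⟨a1, (h.W_le0 (by omega)).trans a1⟩) 0 (by simp [zd])).1
  have u0 := h.U_nn (v := v) (by omega)
  have e0 : ht ν 0 = 0 := by simp [ht]
  rw [add_zero, abs_of_nonneg u0, e0, max_self] at h3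
  have r1 : (ρ : ℝ) ≤ 4 * ((ρ / 2 : ℕ) : ℝ) := by exact_mod_cast (by omega : ρ ≤ 4 * (ρ / 2))
  nlinarith

/-- Near a deep point the superharmonic function is close to the value at the point. -/
theorem flat : ∃ C : ℝ, 1 ≤ C ∧ ∀ (M : ℕ) [NeZero M] (I : Finset (Tor M)) (z : Tor M)
    (a₀ : Fin 4) (R : ℕ) (φ : Tor M × Fin 4 → ℝ) (U W : ℤ × ℤ → ℝ),
    LD I z (z, a₀) R φ U W → 2 * R < M → ∀ (r m : ℕ) (v : ℤ × ℤ) (S : ℝ), 16 ≤ r → 1 ≤ m →
    2 * m ≤ r → 2 * r + 3 ≤ zd v 0 → zd v 0 + 2 * r + 3 ≤ R →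
    (∀ p, zd p 0 ≤ r + 5 → z + prj M (v + p) ∈ I) → (∀ p, zd p 0 ≤ 2 * r + 3 → U (v + p) ≤ S) →
      ∀ p, zd p v ≤ m → U v - C * S * m / r ≤ W p := by
  obtain ⟨C₁, hC₁, H₁⟩ := LD.l2
  obtain ⟨C₂, hC₂, H₂⟩ := B2b2.int_est
  refine ⟨6 * C₁ * C₂, by nlinarith, fun M _ I z a₀ R φ U W h hM r m v S h1 h2 h3 h4 h5 hI hS
    p hp => ?_⟩
  have r0 : (16 : ℝ) ≤ r := by exact_mod_cast h1
  have m0 : (1 : ℝ) ≤ m := by exact_mod_cast h2
  have S0 : 0 ≤ S := (h.U_nn (by rw [add_zero]; omega)).trans (hS 0 (by simp [zd]))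
  have a1 := H₁ M I z a₀ R φ U W h v r S h4 h5 hS
  have a2 := (H₂ M (rg I) 1 (fun _ => Or.inl rfl) (z + prj M v) r h1 (by omega)
    (fun _ _ => by simp [flux]) (fun f hf => by
      rw [← B2a.zd_lft] at hf
      have := hI _ hf
      rwa [G.prj_add, ← add_assoc, G.add_prj_lft] at this) φ
    (by rw [mul_one]; exact h.hom hM (by omega) (by omega)) (2 * C₁ * S / r) (a1.trans (by
      have e : 2 * C₁ * S / r * r ^ 2 = C₁ * (2 * r) * S := by field_simp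
      rw [e]
      gcongr
      linarith))).1
  set μ := C₂ * (2 * C₁ * S / r) with hμ
  have μ0 : 0 ≤ μ := by positivity
  have a3 : ∀ d k, zd d 0 ≤ m → 0 ≤ U (v + d) - W (v + d - cn k) ∧
      U (v + d) - W (v + d - cn k) ≤ μ := fun d k hd => by
    have := B1a1.zd_add_le v d
    rw [h.dif _ k (by omega)]
    refine ⟨sq_nonneg _, a2 _ k ?_⟩
    rw [G.prj_add, ← add_assoc]
    have := B2a.td_le (z + prj M v) hd
    omega
  have z0 : ∀ d, (0 : ℝ) ≤ ht 0 d := fun d => by simp [ht]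
  have hd : zd (p - v) 0 ≤ m := by rwa [zd_sub0]
  have a4 := B1b.path 0 m 0 μ (fun d => U (v + d)) (fun d a k1 _ k2 _ => by
    obtain ⟨k, k', hk⟩ := B1b.corner (v + d) a
    have b1 := a3 d k k1
    have b2 := a3 _ k' k2
    rw [← add_assoc, hk] at b2
    rw [← add_assoc, abs_le]
    constructor <;> linarith [b1.1, b1.2, b2.1, b2.2]) _ 0 (p - v) (by simp [zd]) (z0 _) hd
    (z0 _) rfl
  have a5 := (a3 _ 0 hd).2
  rw [B1a1.sub_cn_zero, add_sub_cancel] at a5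
  rw [add_zero, add_sub_cancel] at a4
  have a6 : (((0 : ℤ × ℤ).1 - (p - v).1).natAbs + ((0 : ℤ × ℤ).2 - (p - v).2).natAbs : ℕ) ≤
      2 * m := by
    simp only [zd, Prod.fst_zero, Prod.snd_zero, sub_zero, max_le_iff, zero_sub,
      Int.natAbs_neg] at hd ⊢
    omega
  have a7 := mul_le_mul_of_nonneg_left ((Nat.cast_le (α := ℝ)).2 a6) μ0
  have e : 6 * C₁ * C₂ * S * m / r = μ * (3 * m) := by rw [hμ]; ring
  rw [e]
  push_cast at a7 a4
  nlinarith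

/-- The case of slow decay. -/
theorem slow (hc : Ch c) (c0 : 0 < c) {K : ℝ} (hK : 1 ≤ K) : ∃ (N : ℕ) (κ₀ c' : ℝ), 0 < κ₀ ∧
    0 < c' ∧ ∀ (M : ℕ) [NeZero M] (I : Finset (Tor M)) (z : Tor M)
    (a₀ e : Fin 4) (R : ℕ) (ν : ℂ) (κ : ℝ) (φ : Tor M × Fin 4 → ℝ) (U W : ℤ × ℤ → ℝ),
    LD I z (z, a₀) R φ U W → Cn I z ν e κ R → 0 ≤ κ → κ ≤ κ₀ → 2 * R < M →
    ∀ (ρ : ℕ) (v : ℤ × ℤ), N ≤ ρ → 3 * ρ ≤ R → zd v 0 = ρ →
    (∀ p, ρ / 2 ≤ zd p 0 → zd p 0 ≤ R → U p ≤ K * U v) → Q W ν ρ (c' * U v) := by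
  obtain ⟨C₁, hC₁, H₁⟩ := depth
  obtain ⟨C₂, hC₂, H₂⟩ := flat
  obtain ⟨N₂, hN₂⟩ := exists_nat_ge (16 * (C₁ * K))
  obtain ⟨N₃, hN₃⟩ := exists_nat_ge (16 * (C₂ * K))
  have k1 : 1 ≤ C₁ * K := by nlinarith
  have k2 : 1 ≤ C₂ * K := by nlinarith
  have n2 : 16 ≤ N₂ := by exact_mod_cast (by linarith : (16 : ℝ) ≤ N₂)
  have n3 : 16 ≤ N₃ := by exact_mod_cast (by linarith : (16 : ℝ) ≤ N₃)
  refine ⟨N₂ * N₃, 1 / (64 * (C₁ * K)), c ^ (6 * (N₂ * N₃)) * (1 / 2), by positivity,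
    by positivity, fun M _ I z a₀ e R ν κ φ U W h g κ0 hκ hM ρ v hN hR hv hS y hy hy' => ?_⟩
  have u0 := h.U_nn (v := v) (by omega)
  rcases u0.eq_or_lt with u1 | u1
  · rw [← u1, mul_zero]
    exact h.nn y (by omega)
  obtain ⟨m, hm⟩ : ∃ m, m = ρ / (N₂ * N₃) := ⟨_, rfl⟩
  have p0 : 0 < N₂ * N₃ := by positivity
  have m1 : 1 ≤ m := hm ▸ (Nat.le_div_iff_mul_le p0).2 (by omega)
  have m2 : N₂ * (N₃ * m) ≤ ρ := by rw [← mul_assoc, hm]; exact Nat.mul_div_le _ _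
  have m3 : ρ ≤ 2 * (N₂ * N₃ * m) := by
    have := Nat.lt_mul_div_succ ρ p0
    rw [← hm, mul_add, mul_one] at this
    have := Nat.le_mul_of_pos_right (N₂ * N₃) m1
    omega
  have m4 : 16 * m ≤ N₃ * m := Nat.mul_le_mul_right _ n3
  have em : ((N₃ * m : ℕ) : ℝ) = N₃ * m := by push_cast; rfl
  generalize N₃ * m = r at m2 m4 em
  have m5 : 16 * r ≤ N₂ * r := Nat.mul_le_mul_right _ n2
  obtain ⟨d, hd⟩ : ∃ d : ℝ, d = ρ / (4 * (C₁ * K)) := ⟨_, rfl⟩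
  have ed : (ρ : ℝ) = 4 * (C₁ * K) * d := by rw [hd]; field_simp
  have d0 : 0 ≤ d := by rw [hd]; positivity
  have r1 : (16 : ℝ) * m ≤ r := by exact_mod_cast m4
  have r0 : (1 : ℝ) ≤ m := by exact_mod_cast m1
  have d1 : 4 * (r : ℝ) ≤ d := by
    have a1 : (N₂ : ℝ) * r ≤ ρ := by exact_mod_cast m2
    refine le_of_mul_le_mul_left (a := 4 * (C₁ * K)) ?_ (by positivity)
    nlinarith
  have d2 : 8 * κ * ρ ≤ d / 2 := by
    rw [le_div_iff₀ (by positivity)] at hκ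
    rw [ed]
    nlinarith
  have d3 : 4 * d ≤ ρ := by rw [ed]; nlinarith
  have a1 := H₁ M I z a₀ e R ν κ φ U W h g κ0 ρ v _ (by omega) hR hv hS
  have a2 : 3 * d ≤ ht ν v := by
    have b1 : 4 * d ≤ max (ht ν v) 0 + (8 * κ * ρ + 2) + 3 := by
      refine le_of_mul_le_mul_left (a := C₁ * K * U v) ?_ (by positivity)
      calc C₁ * K * U v * (4 * d) = U v * ρ := by rw [ed]; ring
        _ ≤ _ := a1.trans_eq (by ring)
    rcases le_total (ht ν v) 0 with b2 | b2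
    · rw [max_eq_right b2] at b1
      linarith
    · rw [max_eq_left b2] at b1
      linarith
  have a3 := H₂ M I z a₀ R φ U W h hM r m v (K * U v) (by omega) m1 (by omega) (by omega)
    (by omega) (fun p hp => by
      have := B1a1.zd_add_le v p
      have b1 := (ht_near g.norm (v := v + p) (p := v) (m := r + 5) (by rwa [zd_add0])).1
      push_cast at b1
      exact g.inn ρ (by omega) hR _ (by omega) (by linarith)) fun p hp => by
      have := B1a1.zd_add_le v p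
      have := zd_rev v p
      exact hS _ (by omega) (by omega)
  have a4 : C₂ * (K * U v) * m / r ≤ 1 / 2 * U v := by
    rw [div_le_iff₀ (by linarith), em]
    nlinarith [mul_nonneg (mul_nonneg u0 (by linarith : (0 : ℝ) ≤ m)) (sub_nonneg.2 hN₃),
      mul_nonneg (mul_nonneg u0 (by linarith : (0 : ℝ) ≤ m)) (by linarith : (0 : ℝ) ≤ C₂ * K)]
  rw [mul_assoc]
  exact hc _ W ν (3 * ρ) (2 * ρ) m (8 * κ * ρ + 2) d _ v y g.norm (fun v hv => h.nn v (by omega))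
    (fun v hv hw => h.sup v (by omega) (g.inn ρ (by omega) hR v hv hw)) m1 (by omega)
    (by linarith) (by omega) hy (by linarith) (by linarith)
    (by have := zd_two v y; rw [mul_assoc]; omega) (by omega) (by positivity)
    fun p hp => by linarith [a3 p hp]

end Vale.Agent.P144Z.IN5a
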