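import Vale.Agent.P144D.I.N5a.E

/-!
The lower bound for the superharmonic function near the source.
-/

namespace Vale.Agent.P144Z

open Finset Matrix

namespace IN5a

theorem exists_max (U : ℤ × ℤ → ℝ) (ρ : ℕ) :
    ∃ v, zd v 0 = ρ ∧ ∀ p, zd p 0 = ρ → U p ≤ U v := by
  obtain ⟨v, hv, h⟩ := ((HomDec.box ρ).filter fun p => zd p 0 = ρ).exists_max_image U
    ⟨ρ • st4 0, mem_filter.2 ⟨HomDec.mem_box.2 (zd_smul ρ 0).le, zd_smul ρ 0⟩⟩
  exact ⟨v, (mem_filter.1 hv).2, fun p hp => h p (mem_filter.2 ⟨HomDec.mem_box.2 hp.le, hp⟩)⟩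

/-- The comparison at all scales. -/
theorem all_scales {c : ℝ} (hc : Ch c) (c0 : 0 < c) (c1 : c ≤ 1) : ∃ κ₀ c' : ℝ, 0 < κ₀ ∧
    1000 * κ₀ ≤ 1 ∧ 0 < c' ∧ ∀ (M : ℕ) [NeZero M] (I : Finset (Tor M)) (z : Tor M)
    (a₀ e : Fin 4) (R : ℕ) (ν : ℂ) (φ : Tor M × Fin 4 → ℝ) (U W : ℤ × ℤ → ℝ),
    LD I z (z, a₀) R φ U W → Cn I z ν e κ₀ R → 2 * R < M →
    ∀ ρ : ℕ, 64 ≤ ρ → 3 * ρ ≤ R → ∀ v, zd v 0 = ρ → Q W ν ρ (c' * U v) := by
  have p0 : 0 < c ^ 768 := by positivity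
  obtain ⟨N, κ₁, c₁, κ1, c2, H⟩ := slow hc c0 (K := (c ^ 768)⁻¹)
    (one_le_inv_iff₀.2 ⟨p0, pow_le_one₀ c0.le c1⟩)
  obtain ⟨c₂, hc₂⟩ : ∃ c₂ : ℝ, c₂ = (1 / 16) ^ (5 * (N + 128)) * ((1 / 4) ^ (N + 128) * (1 / 141)) :=
    ⟨_, rfl⟩
  have c3 : 0 < c₂ := by rw [hc₂]; positivity
  have k1 := min_le_left κ₁ (1 / 1000)
  have k2 := min_le_right κ₁ (1 / 1000)
  refine ⟨min κ₁ (1 / 1000), min c₁ c₂, by positivity, by linarith, by positivity,
    fun M _ I z a₀ e R ν φ U W h g hM ρ => ?_⟩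
  induction ρ using Nat.strong_induction_on with
  | _ ρ ih =>
  intro h1 h2 v hv
  have u0 := h.U_nn (v := v) (by omega)
  by_cases h3 : ρ ≤ N + 128
  · refine (base h g (by linarith) hM h1 h3 h2 hv).mono ?_
    rw [← hc₂]
    exact mul_le_mul_of_nonneg_right (min_le_right _ _) u0
  obtain ⟨v', hv', hmax⟩ := exists_max U (ρ / 2)
  have u1 := h.U_nn (v := v') (by omega)
  rcases le_total (U v') ((c ^ 768)⁻¹ * U v) with h4 | h4
  · refine (H M I z a₀ e R ν _ φ U W h g (by positivity) k1 hM ρ v (by omega) h2 hv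
      fun p p1 p2 => (h.mp (ρ / 2) _ (by omega) u1 hmax p p1 p2).trans h4).mono ?_
    exact mul_le_mul_of_nonneg_right (min_le_left _ _) u0
  · refine (dbl hc h g (by linarith) (ρ' := ρ / 2) (by omega) (by omega) (by omega) h2
      (by positivity) (ih (ρ / 2) (by omega) (by omega) (by omega) v' hv')).mono ?_
    rw [inv_mul_le_iff₀ p0] at h4
    rw [mul_left_comm]
    exact mul_le_mul_of_nonneg_left h4 (by positivity)

end IN5a

open IN5a in
/-- The lower bound near the source. -/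
theorem nearA_of (hH : HarnStmt) : NearA := by
  obtain ⟨c, c0, c1, hc⟩ := deep_chain hH
  obtain ⟨κ, c', κ0, κ1, c2, H⟩ := all_scales hc c0 c1
  obtain ⟨C, hC, low⟩ := lower
  intro K hK
  refine ⟨1, 8, fun L hL => ⟨κ, κ0, fun N => ⟨(c ^ 768) ^ (4 * N * L) * (c' / (C * K ^ 4)),
    by positivity, 2, fun J hJ M _ I Ia T q x₀ e ua νa η φ u w hI hx hS hm hq hT hN hM ch hφ h1 h2
      h3 v hv => ?_⟩⟩⟩
  obtain ⟨j, rfl⟩ : ∃ j, J = j + 1 := ⟨J - 1, by omega⟩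
  have at1 := ch.pos j (by omega) (by omega)
  have hom := ch.hom j (by omega) (by omega)
  obtain ⟨l, hl⟩ : ∃ l, l = L ^ j := ⟨_, rfl⟩
  have l1 : 8 ≤ l := by
    rw [hl]
    exact hL.trans (Nat.le_self_pow (by omega) L)
  have s1 : sc L j = 8 * l := by rw [sc, hl]
  have s2 : sc L (j + 1) = 8 * (L * l) := by rw [sc, hl, pow_succ']
  have l2 : 8 * l ≤ L * l := Nat.mul_le_mul_right _ hL
  rw [s1, s2] at at1
  rw [s2] at hom hq hN
  obtain ⟨φ', U, W, h, hW⟩ := exists_LD hI hx hS hm.touch (by omega) hT hM hφ h1 h2 h3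
  obtain ⟨ν, g⟩ := exists_Cn (R := 15 * q) hm κ0.le (by linarith) (by omega) (by omega)
  obtain ⟨v', hv', hmax⟩ := exists_max U (10 * l)
  have u1 := h.U_nn (v := v') (by omega)
  have a1 : νa j ^ 2 ≤ C * K ^ 2 * U v' := by
    refine low M Ia _ _ _ φ' U W h l (ua j) _ K _ (by omega) (by omega) at1.one
      (fun s hs => hom s (by simp only; omega)) ?_ u1 hmax
    have b1 := at1.test
    rw [show 3 * (8 * l) = 24 * l by ring] at b1
    push_cast at b1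
    exact (mul_le_mul_of_nonneg_right (E4.l2sq_le_hsq _ _ _ _) (sq_nonneg _)).trans b1
  have a2 : νa (j + 1) ^ 2 ≤ K ^ 2 * νa j ^ 2 := by
    rw [← mul_pow]
    refine pow_le_pow_left₀ at1.pos'.le (at1.le.trans (mul_le_of_le_one_right
      (mul_nonneg (by linarith) at1.pos.le) (Real.sqrt_le_one.2 ?_))) 2
    refine div_le_one_of_le₀ ?_ (by positivity)
    exact_mod_cast (by omega : 8 * l ≤ 8 * (L * l))
  have a3 := climb hc c0 h g κ1 (ρ' := 10 * l) (by omega) (by positivity)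
    (H M Ia _ _ e _ ν φ' U W h g (by omega) (10 * l) (by omega) (by omega) v' hv') (4 * N * L)
    (5 * q) (by omega) (by
      have b1 := Nat.mul_le_mul_right (10 * l) (Nat.lt_two_pow_self (n := 4 * N * L)).le
      have b2 : 4 * N * L * (10 * l) = 5 * (N * (8 * (L * l))) := by ring
      omega) (by omega)
  have z1 : zd (v - x₀) ((8 * q : ℕ) • st4 e) ≤ q := by
    rwa [← zd_sub0, sub_sub, zd_sub0]
  have z2 := GeoA.zd_tri (v - x₀) ((8 * q : ℕ) • st4 e) 0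
  rw [zd_smul] at z2
  have a4 := a3 (v - x₀) (by omega) (by
    have b1 := (ht_near g.norm z1).1
    rw [ht_smul] at b1
    push_cast at b1 ⊢
    nlinarith [g.dir, Nat.cast_nonneg (α := ℝ) q])
  have a5 := hW (v - x₀) (by omega)
  rw [add_sub_cancel] at a5
  refine le_trans ?_ (a4.trans a5)
  rw [mul_assoc]
  refine mul_le_mul_of_nonneg_left ?_ (by positivity)
  rw [div_mul_eq_mul_div, div_le_iff₀ (by positivity), mul_assoc]
  refine mul_le_mul_of_nonneg_left ?_ c2.le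
  nlinarith [mul_le_mul_of_nonneg_left a1 (sq_nonneg K)]

end Vale.Agent.P144Z
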